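import Mathlib
import Vale.Agent.P150.Gauss

/-!
Increment comparison of the mean log-sum-exp of two Gaussian families, and the bound on the
mean maximum that follows from it. Used for P150.
-/

open MeasureTheory ProbabilityTheory Set

namespace Vale.Agent.P150.Edge

variable {ι κ S : Type*} [Fintype ι] [Fintype κ] [Fintype S] [Nonempty S]

/-- Smaller increments give a smaller mean log-sum-exp. -/
theorem compare_incr (v : S → ι → ℝ) (w : S → κ → ℝ)
    (hinc : ∀ a c, ∑ i, (v a i - v c i) ^ 2 ≤ ∑ j, (w a j - w c j) ^ 2) : EL v ≤ EL w := by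
  set Γ : S → S → ℝ := fun a c => ∑ i, v a i * v c i - ∑ j, w a j * w c j with hΓ
  have hinc' : ∀ a c, Γ a a + Γ c c - 2 * Γ a c ≤ 0 := fun a c => by
    have := hinc a c
    have e1 : ∑ i, (v a i - v c i) ^ 2
        = ∑ i, v a i * v a i + ∑ i, v c i * v c i - 2 * ∑ i, v a i * v c i := by
      rw [Finset.mul_sum, ← Finset.sum_add_distrib, ← Finset.sum_sub_distrib]
      exact Finset.sum_congr rfl fun i _ => by ring
    have e2 : ∑ i, (w a i - w c i) ^ 2
        = ∑ i, w a i * w a i + ∑ i, w c i * w c i - 2 * ∑ i, w a i * w c i := by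
      rw [Finset.mul_sum, ← Finset.sum_add_distrib, ← Finset.sum_sub_distrib]
      exact Finset.sum_congr rfl fun i _ => by ring
    rw [e1, e2] at this
    simp only [hΓ]
    linarith
  have hder : ∀ θ, HasDerivAt (fun r => EL (mix v w r))
      (∫ g, Real.sin θ * Real.cos θ * ((∑ a, soft (mix v w θ) g a * Γ a a)
        - ∑ a, ∑ c, soft (mix v w θ) g a * soft (mix v w θ) g c * Γ a c) ∂gp (ι ⊕ κ)) θ :=
    fun θ => deriv_EL_mix v w θ
  have hle : ∀ θ ∈ Icc (0 : ℝ) (Real.pi / 2), deriv (fun r => EL (mix v w r)) θ ≤ 0 := fun θ hθ => by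
    rw [(hder θ).deriv]
    refine integral_nonpos fun g => ?_
    have hsc : 0 ≤ Real.sin θ * Real.cos θ := mul_nonneg
      (Real.sin_nonneg_of_nonneg_of_le_pi hθ.1 (by linarith [hθ.2, Real.pi_pos]))
      (Real.cos_nonneg_of_mem_Icc ⟨by linarith [hθ.1, Real.pi_pos], hθ.2⟩)
    refine mul_nonpos_of_nonneg_of_nonpos hsc ?_
    set p := soft (mix v w θ) g
    have hsum : ∑ a, ∑ c, p a * p c * (Γ a a + Γ c c - 2 * Γ a c) ≤ 0 :=
      Finset.sum_nonpos fun a _ => Finset.sum_nonpos fun c _ =>
        mul_nonpos_of_nonneg_of_nonpos (mul_nonneg (soft_nonneg _ _ a) (soft_nonneg _ _ c)) (hinc' a c)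
    have hp : ∑ a, p a = 1 := soft_sum _ g
    have e : ∑ a, ∑ c, p a * p c * (Γ a a + Γ c c - 2 * Γ a c)
        = 2 * ((∑ a, p a * Γ a a) - ∑ a, ∑ c, p a * p c * Γ a c) := by
      have h1 : ∑ a, ∑ c, p a * p c * Γ a a = ∑ a, p a * Γ a a := Finset.sum_congr rfl fun a _ => by
        rw [← Finset.sum_mul, ← Finset.mul_sum, hp, mul_one]
      have h2 : ∑ a, ∑ c, p a * p c * Γ c c = ∑ a, p a * Γ a a := by
        rw [Finset.sum_comm]
        exact Finset.sum_congr rfl fun c _ => by
          rw [← Finset.sum_mul, ← Finset.sum_mul, hp, one_mul]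
      have h3 : ∀ a c, p a * p c * (Γ a a + Γ c c - 2 * Γ a c)
          = p a * p c * Γ a a + p a * p c * Γ c c - 2 * (p a * p c * Γ a c) := fun a c => by ring
      simp only [h3, Finset.sum_sub_distrib, Finset.sum_add_distrib, ← Finset.mul_sum, h1, h2]
      ring
    linarith
  have anti : AntitoneOn (fun r => EL (mix v w r)) (Icc (0 : ℝ) (Real.pi / 2)) :=
    antitoneOn_of_deriv_nonpos (convex_Icc _ _)
      (fun θ _ => (hder θ).continuousAt.continuousWithinAt)
      (fun θ _ => (hder θ).differentiableAt.differentiableWithinAt)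
      (fun θ hθ => hle θ (interior_subset hθ))
  have h := anti (left_mem_Icc.2 (by positivity)) (right_mem_Icc.2 (by positivity)) (by positivity)
  have e0 : EL (mix v w 0) = EL w := by
    have hp := mp_snd (ι := ι) (κ := κ)
    unfold EL
    conv_rhs => rw [← hp.map_eq, integral_map hp.measurable.aemeasurable
      (continuous_lse w).aestronglyMeasurable]
    congr 1; funext g
    simp [lse, P150.lin, mix, Fintype.sum_sum_type]
  have e1 : EL (mix v w (Real.pi / 2)) = EL v := by
    have hp := mp_fst (ι := ι) (κ := κ)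
    unfold EL
    conv_rhs => rw [← hp.map_eq, integral_map hp.measurable.aemeasurable
      (continuous_lse v).aestronglyMeasurable]
    congr 1; funext g
    simp [lse, P150.lin, mix, Fintype.sum_sum_type]
  simpa [e0, e1] using h

/-- The largest of finitely many linear forms. -/
noncomputable def maxLin (v : S → ι → ℝ) (g : ι → ℝ) : ℝ :=
  Finset.univ.sup' Finset.univ_nonempty fun a => P150.lin (v a) g

theorem maxLin_lip (v : S → ι → ℝ) {L : ℝ} (hL : 0 ≤ L) (hv : ∀ a, ∑ i, v a i ^ 2 ≤ L ^ 2)
    (g h : ι → ℝ) : |maxLin v g - maxLin v h| ≤ L * √(∑ i, (g i - h i) ^ 2) := by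
  have key : ∀ g h : ι → ℝ, maxLin v g ≤ maxLin v h + L * √(∑ i, (g i - h i) ^ 2) := fun g h => by
    refine Finset.sup'_le _ _ fun a _ => ?_
    have h1 : P150.lin (v a) h ≤ maxLin v h :=
      Finset.le_sup' (fun b => P150.lin (v b) h) (Finset.mem_univ a)
    have hcs := Real.sum_mul_le_sqrt_mul_sqrt Finset.univ (fun i => g i - h i) (v a)
    have e : ∑ i, (g i - h i) * v a i = P150.lin (v a) g - P150.lin (v a) h := by
      simp only [P150.lin, sub_mul, Finset.sum_sub_distrib]
    rw [e] at hcs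
    have h2 : √(∑ i, v a i ^ 2) ≤ L := (Real.sqrt_le_sqrt (hv a)).trans_eq (Real.sqrt_sq hL)
    have h3 := mul_le_mul_of_nonneg_left h2 (Real.sqrt_nonneg (∑ i, (g i - h i) ^ 2))
    linarith [mul_comm L √(∑ i, (g i - h i) ^ 2)]
  have e : √(∑ i, (h i - g i) ^ 2) = √(∑ i, (g i - h i) ^ 2) := by
    congr 1; exact Finset.sum_congr rfl fun i _ => by ring
  refine abs_sub_le_iff.2 ⟨by linarith [key g h], ?_⟩
  have := key h g
  rw [e] at this
  linarith

@[fun_prop]
theorem continuous_maxLin (v : S → ι → ℝ) : Continuous (maxLin v) :=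
  Continuous.finset_sup'_apply _ fun a _ => continuous_lin (v a)

theorem integrable_maxLin (v : S → ι → ℝ) : Integrable (maxLin v) (gp ι) := by
  refine ((integrable_finsetSum Finset.univ fun a _ =>
    (integrable_abs_coord_sum (ι := ι)).const_mul (∑ i, |v a i|))).mono'
    (continuous_maxLin v).aestronglyMeasurable (ae_of_all _ fun g => ?_)
  obtain ⟨a, -, ha⟩ := Finset.exists_mem_eq_sup' Finset.univ_nonempty fun a => P150.lin (v a) g
  rw [Real.norm_eq_abs, maxLin, ha]
  exact (abs_lin_le _ _).trans (Finset.single_le_sum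
    (f := fun b => (∑ i, |v b i|) * ∑ i, |g i|) (fun b _ => by positivity) (Finset.mem_univ a))

theorem lse_smul_le (v : S → ι → ℝ) {θ : ℝ} (hθ : 0 ≤ θ) (g : ι → ℝ) :
    lse (fun a i => θ * v a i) g ≤ Real.log (Fintype.card S) + θ * maxLin v g ∧
    θ * maxLin v g ≤ lse (fun a i => θ * v a i) g := by
  have e : ∀ a, P150.lin (fun i => θ * v a i) g = θ * P150.lin (v a) g := fun a => by
    simp only [P150.lin, Finset.mul_sum]
    exact Finset.sum_congr rfl fun i _ => by ring
  constructor
  · rw [lse, ← Real.log_exp (θ * maxLin v g),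
      ← Real.log_mul (by positivity) (Real.exp_pos _).ne']
    refine Real.log_le_log (lse_den_pos _ g) ((Finset.sum_le_sum fun a _ => ?_).trans_eq
      (by rw [Finset.sum_const, Finset.card_univ, nsmul_eq_mul]))
    rw [e]
    exact Real.exp_le_exp.2 (mul_le_mul_of_nonneg_left
      (Finset.le_sup' (fun b => P150.lin (v b) g) (Finset.mem_univ a)) hθ)
  · obtain ⟨a, -, ha⟩ := Finset.exists_mem_eq_sup' Finset.univ_nonempty fun a => P150.lin (v a) g
    rw [maxLin, ha, lse, ← e, ← Real.log_exp (P150.lin (fun i => θ * v a i) g)]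
    refine Real.log_le_log (Real.exp_pos _) ?_
    exact Finset.single_le_sum (f := fun b => Real.exp (P150.lin (fun i => θ * v b i) g))
      (fun b _ => (Real.exp_pos _).le) (Finset.mem_univ a)

/-- Smaller increments give a smaller mean maximum. -/
theorem mean_max_le (v : S → ι → ℝ) (w : S → κ → ℝ)
    (hinc : ∀ a c, ∑ i, (v a i - v c i) ^ 2 ≤ ∑ j, (w a j - w c j) ^ 2) :
    ∫ g, maxLin v g ∂gp ι ≤ ∫ g, maxLin w g ∂gp κ := by
  have key : ∀ θ : ℝ, 0 < θ → θ * ∫ g, maxLin v g ∂gp ι
      ≤ Real.log (Fintype.card S) + θ * ∫ g, maxLin w g ∂gp κ := fun θ hθ => by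
    have h1 : EL (fun a i => θ * v a i) ≤ EL (fun a j => θ * w a j) := compare_incr _ _ fun a c => by
      simp only [← mul_sub, mul_pow, ← Finset.mul_sum]
      exact mul_le_mul_of_nonneg_left (hinc a c) (sq_nonneg θ)
    have h2 : θ * ∫ g, maxLin v g ∂gp ι ≤ EL (fun a i => θ * v a i) := by
      rw [← integral_const_mul, EL]
      exact integral_mono ((integrable_maxLin v).const_mul θ) (integrable_lse _)
        fun g => (lse_smul_le v hθ.le g).2
    have h3 : EL (fun a j => θ * w a j) ≤ Real.log (Fintype.card S) + θ * ∫ g, maxLin w g ∂gp κ := by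
      rw [← integral_const_mul, EL]
      refine (integral_mono (g := fun g => Real.log (Fintype.card S) + θ * maxLin w g) (integrable_lse _)
        ((integrable_const _).add ((integrable_maxLin w).const_mul θ))
        fun g => (lse_smul_le w hθ.le g).1).trans_eq ?_
      rw [integral_add (integrable_const _) ((integrable_maxLin w).const_mul θ)]
      simp
    linarith
  refine le_of_forall_pos_le_add fun e he => ?_
  set l := Real.log (Fintype.card S)
  have hl : 0 ≤ l := Real.log_natCast_nonneg _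
  have h := key ((l + 1) / e) (by positivity)
  have h2 := mul_le_mul_of_nonneg_right h he.le
  field_simp at h2
  refine le_of_mul_le_mul_left (a := l + 1) ?_ (by linarith)
  nlinarith

end Vale.Agent.P150.Edge
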