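import Mathlib
import Vale.Agent.P249.Lower.Gauss
import Vale.Agent.P150.Gauss

/-!
Fourth-moment Gaussian concentration for Lipschitz functions of iid coordinates, for P150.
-/

open MeasureTheory ProbabilityTheory Real Filter
open scoped NNReal

namespace Vale.Agent.P150.Edge

variable {ι : Type*} [Fintype ι]

theorem pow_four_jensen {Ω : Type*} [MeasurableSpace Ω] (μ : Measure Ω) [IsProbabilityMeasure μ]
    {D : Ω → ℝ} (h1 : MemLp D 4 μ) : (∫ x, D x ∂μ) ^ 4 ≤ ∫ x, D x ^ 4 ∂μ := by
  have h2 : MemLp D 2 μ := h1.mono_exponent (by norm_num)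
  have hD2 : MemLp (fun x => D x ^ 2) 2 μ := by
    refine (memLp_two_iff_integrable_sq (h1.1.pow 2)).2 ?_
    have h := h1.integrable_norm_pow (p := 4) (by norm_num)
    refine h.congr (ae_of_all _ fun x => ?_)
    simp only [Real.norm_eq_abs, Pi.pow_apply]
    rw [← pow_mul]
    exact (show Even 4 by decide).pow_abs (D x)
  have a := variance_nonneg D μ
  have b := variance_nonneg (fun x => D x ^ 2) μ
  rw [variance_eq_sub h2] at a
  rw [variance_eq_sub hD2] at b
  simp only [Pi.pow_apply] at a b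
  have e : ∫ x, (D x ^ 2) ^ 2 ∂μ = ∫ x, D x ^ 4 ∂μ := by
    congr 1; funext x; ring
  rw [e] at b
  nlinarith [mul_le_mul (sub_nonneg.1 a) (sub_nonneg.1 a) (sq_nonneg _)
    (integral_nonneg fun x => sq_nonneg (D x))]

/-- A function that is Lipschitz for the Euclidean norm of the coordinates is concentrated. -/
theorem lip_tail : ∃ C : ℝ, 0 ≤ C ∧ ∀ (ι : Type) [Fintype ι] (U : (ι → ℝ) → ℝ) (L : ℝ), 0 < L →
    (∀ g h, |U g - U h| ≤ L * √(∑ i, (g i - h i) ^ 2)) → ∀ s : ℝ, 0 < s →
    (gp ι).real {g | ∫ h, U h ∂gp ι + s ≤ U g} ≤ C * L ^ 4 / s ^ 4 := by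
  refine ⟨(π / 2) ^ (4 : ℝ) * P249.Lower.mom 4,
    mul_nonneg (by positivity) (P249.Lower.mom_nonneg _), fun ι _ U L hL hU s hs => ?_⟩
  set k := Fintype.card ι
  set e := Fintype.equivFin ι
  set T : P249.Lower.E k → ι → ℝ := fun x i => x.ofLp (e i) with hT
  have hTm : Measurable T := measurable_pi_lambda _ fun i =>
    (measurable_pi_apply (e i)).comp (PiLp.continuous_ofLp 2 _).measurable
  have mp : MeasurePreserving T (P249.Lower.γ k) (gp ι) := by
    refine ⟨hTm, ?_⟩
    rw [P249.Lower.γ, ← map_pi_eq_stdGaussian, Measure.map_map hTm (by fun_prop)]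
    have h := (measurePreserving_piCongrLeft (fun _ : ι => gaussianReal 0 1) e.symm).map_eq
    rw [gp, ← h]
    congr 1
    funext y i
    have hi := MeasurableEquiv.piCongrLeft_apply_apply (β := fun _ : ι => ℝ) e.symm y (e i)
    simp only [Equiv.symm_apply_apply] at hi
    simp [T, hi]
  set V : P249.Lower.E k → ℝ := fun x => L⁻¹ * U (T x) with hV
  have hVl : LipschitzWith 1 V := by
    refine LipschitzWith.of_dist_le_mul fun x y => ?_
    have hs : ∑ i, (T x i - T y i) ^ 2 = ∑ j, (x.ofLp j - y.ofLp j) ^ 2 :=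
      Equiv.sum_comp e fun j => (x.ofLp j - y.ofLp j) ^ 2
    rw [NNReal.coe_one, one_mul, Real.dist_eq, EuclideanSpace.dist_eq]
    simp only [Real.dist_eq, sq_abs]
    rw [hV, ← mul_sub, abs_mul, abs_of_pos (inv_pos.2 hL), ← hs, inv_mul_le_iff₀ hL]
    exact hU _ _
  have hmem : ∀ q : ENNReal, q ≠ ⊤ → MemLp V q (P249.Lower.γ k) := fun q hq => by
    refine ((memLp_const |V 0|).add (IsGaussian.memLp_id (P249.Lower.γ k) q hq).norm).mono
      hVl.continuous.aestronglyMeasurable (ae_of_all _ fun x => ?_)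
    have h := hVl.dist_le_mul x 0
    rw [NNReal.coe_one, one_mul, Real.dist_eq, dist_eq_norm, sub_zero] at h
    simp only [Pi.add_apply, id, Real.norm_eq_abs]
    rw [abs_of_nonneg (add_nonneg (abs_nonneg _) (norm_nonneg _))]
    linarith [abs_sub_abs_le_abs_sub (V x) (V 0)]
  have hg := P249.Lower.gaussian_lip k (p := 4) (by norm_num) V hVl
  set μ := P249.Lower.γ k
  set m := ∫ x, V x ∂μ with hm
  have hD : ∀ x, MemLp (fun y => V x - V y) 4 μ := fun x =>
    (memLp_const (V x)).sub (hmem 4 (by norm_num))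
  have hint : Integrable (fun z : P249.Lower.E k × P249.Lower.E k => (V z.1 - V z.2) ^ 4)
      (μ.prod μ) := by
    have h := (((hmem 4 (by norm_num)).comp_fst μ).sub ((hmem 4 (by norm_num)).comp_snd μ)).integrable_norm_pow
      (p := 4) (by norm_num)
    refine h.congr (ae_of_all _ fun z => ?_)
    simp only [Real.norm_eq_abs, Pi.sub_apply]
    exact (show Even 4 by decide).pow_abs _
  have h4 : ∫ x, (V x - m) ^ 4 ∂μ ≤ (π / 2) ^ (4 : ℝ) * P249.Lower.mom 4 := by
    refine le_trans (b := ∫ x, ∫ y, (V x - V y) ^ 4 ∂μ ∂μ) ?_ ((le_of_eq ?_).trans hg)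
    · refine integral_mono_of_nonneg (ae_of_all _ fun x => (show Even 4 by decide).pow_nonneg _)
        hint.integral_prod_left (ae_of_all _ fun x => ?_)
      have h := pow_four_jensen μ (hD x)
      rwa [integral_sub (integrable_const _) ((hmem 1 (by simp)).integrable le_rfl), integral_const,
        probReal_univ, one_smul] at h
    · rw [← integral_prod _ hint]
      congr 1
      funext z
      rw [show (4 : ℝ) = ((4 : ℕ) : ℝ) by norm_num, rpow_natCast]
      exact ((show Even 4 by decide).pow_abs _).symm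
  have hUm : Continuous U := by
    refine continuous_iff_continuousAt.2 fun g => ?_
    refine continuousAt_of_locally_lipschitz zero_lt_one (L * Fintype.card ι) fun h _ => ?_
    rw [Real.dist_eq]
    refine (hU h g).trans ?_
    rw [mul_assoc]
    refine mul_le_mul_of_nonneg_left ?_ hL.le
    refine Real.sqrt_le_iff.2 ⟨by positivity, ?_⟩
    have hc : (Fintype.card ι : ℝ) ≤ (Fintype.card ι : ℝ) ^ 2 := by exact_mod_cast Nat.le_self_pow two_ne_zero _
    refine (Finset.sum_le_card_nsmul _ _ (dist h g ^ 2) fun i _ => ?_).trans ?_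
    · rw [← sq_abs, ← Real.dist_eq]
      exact pow_le_pow_left₀ dist_nonneg (dist_le_pi_dist h g i) 2
    · rw [nsmul_eq_mul, mul_pow]
      exact mul_le_mul_of_nonneg_right hc (sq_nonneg _)
  have hmean : ∫ h, U h ∂gp ι = L * m := by
    rw [hm, hV, integral_const_mul, ← mul_assoc, mul_inv_cancel₀ hL.ne', one_mul, ← mp.map_eq,
      integral_map hTm.aemeasurable hUm.aestronglyMeasurable]
  have hset : (gp ι).real {g | ∫ h, U h ∂gp ι + s ≤ U g} ≤ μ.real {x | (s / L) ^ 4 ≤ (V x - m) ^ 4} := by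
    have hS : MeasurableSet {g | ∫ h, U h ∂gp ι + s ≤ U g} :=
      measurableSet_le measurable_const hUm.measurable
    conv_lhs => rw [← mp.map_eq]
    rw [map_measureReal_apply hTm (by rw [mp.map_eq]; exact hS), mp.map_eq]
    refine measureReal_mono (fun x hx => ?_) (measure_ne_top _ _)
    simp only [Set.mem_preimage, Set.mem_setOf_eq, hmean] at hx ⊢
    refine pow_le_pow_left₀ (by positivity) ?_ 4
    rw [div_le_iff₀ hL]
    simp only [hV] at *
    field_simp
    linarith
  have hint4 : Integrable (fun x => (V x - m) ^ 4) μ := by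
    have h := ((hmem 4 (by norm_num)).sub (memLp_const m)).integrable_norm_pow (p := 4) (by norm_num)
    refine h.congr (ae_of_all _ fun x => ?_)
    simp only [Real.norm_eq_abs, Pi.sub_apply]
    exact (show Even 4 by decide).pow_abs _
  have hmk := mul_meas_ge_le_integral_of_nonneg (μ := μ)
    (ae_of_all _ fun x => (show Even 4 by decide).pow_nonneg (V x - m)) hint4 ((s / L) ^ 4)
  refine hset.trans ?_
  rw [le_div_iff₀ (by positivity)]
  have e : (s / L) ^ 4 * L ^ 4 = s ^ 4 := by rw [div_pow, div_mul_cancel₀ _ (pow_ne_zero 4 hL.ne')]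
  have := mul_le_mul_of_nonneg_right (hmk.trans h4) (pow_nonneg hL.le 4)
  rw [mul_right_comm, e] at this
  linarith

end Vale.Agent.P150.Edge
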