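import Mathlib
import Vale.Agent.P150.Edge.Lip
import Vale.Agent.P150.Edge.Incr
import Vale.Agent.P150.Defs
import Vale.Agent.P150.Model

/-!
The spectral edge of the Gaussian coupling matrix and its row sums, for P150.
-/

open MeasureTheory ProbabilityTheory Real Filter Finset

namespace Vale.Agent.P150.Edge

variable {n : ℕ}

/-- Sum over all ordered pairs of a function of two sites. -/
theorem sum_sum_eq (n : ℕ) (F : Fin n → Fin n → ℝ) :
    ∑ i, ∑ j, F i j = ∑ p : Pair n, (F p.1.1 p.1.2 + F p.1.2 p.1.1) + ∑ i, F i i := by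
  classical
  rw [← Finset.sum_subtype (Finset.univ.filter fun p : Fin n × Fin n => p.1 < p.2) (by simp)
    (fun p : Fin n × Fin n => F p.1 p.2 + F p.2 p.1), Finset.sum_filter, Fintype.sum_prod_type]
  have h : ∀ i j, F i j = (if i < j then F i j else 0) + (if j < i then F i j else 0)
      + if i = j then F i j else 0 := fun i j => by
    rcases lt_trichotomy i j with h | h | h
    · simp [h, h.ne, h.not_gt]
    · subst h; simp
    · simp [h, h.ne', h.not_gt]
  have e : ∑ i, ∑ j, F i j = ∑ i, ∑ j, ((if i < j then F i j else 0)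
      + (if j < i then F i j else 0) + if i = j then F i j else 0) :=
    sum_congr rfl fun i _ => sum_congr rfl fun j _ => h i j
  rw [e]
  simp only [sum_add_distrib, Finset.sum_ite_eq, Finset.mem_univ, if_true]
  rw [Finset.sum_comm (f := fun i j => if j < i then F i j else 0)]
  congr 1
  simp only [← sum_add_distrib]
  refine sum_congr rfl fun i _ => sum_congr rfl fun j _ => ?_
  split <;> simp

/-- Coefficients of the quadratic form of the upper triangle. -/
def qvec (σ : ℝ) (a : Fin n → ℝ) (p : Pair n) : ℝ := σ * (2 * (a p.1.1 * a p.1.2))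

theorem qvec_incr {σ : ℝ} (hσ : σ ^ 2 = 1) {a c : Fin n → ℝ} (ha : ∑ i, a i ^ 2 = 1)
    (hc : ∑ i, c i ^ 2 = 1) :
    ∑ p, (qvec σ a p - qvec σ c p) ^ 2 ≤ ∑ i, (2 * a i - 2 * c i) ^ 2 := by
  have h := sum_sum_eq n fun i j => (a i * a j - c i * c j) ^ 2
  have e1 : ∑ i, ∑ j, (a i * a j - c i * c j) ^ 2 = 2 - 2 * (∑ i, a i * c i) ^ 2 := by
    have e : ∀ i j, (a i * a j - c i * c j) ^ 2
        = a i ^ 2 * a j ^ 2 + c i ^ 2 * c j ^ 2 - 2 * ((a i * c i) * (a j * c j)) := fun i j => by ring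
    simp only [e, sum_add_distrib, sum_sub_distrib, ← mul_sum, ← sum_mul, ha, hc]
    ring
  have e2 : ∑ p : Pair n, ((a p.1.1 * a p.1.2 - c p.1.1 * c p.1.2) ^ 2
      + (a p.1.2 * a p.1.1 - c p.1.2 * c p.1.1) ^ 2) = (∑ p, (qvec σ a p - qvec σ c p) ^ 2) / 2 := by
    rw [sum_div]
    refine sum_congr rfl fun p _ => ?_
    rw [qvec, qvec, ← mul_sub, mul_pow, hσ]
    ring
  have e3 : ∑ i, (2 * a i - 2 * c i) ^ 2 = 8 - 8 * ∑ i, a i * c i := by
    have e : ∀ i, (2 * a i - 2 * c i) ^ 2 = 4 * a i ^ 2 + 4 * c i ^ 2 - 8 * (a i * c i) :=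
      fun i => by ring
    simp only [e, sum_add_distrib, sum_sub_distrib, ← mul_sum, ha, hc]
    ring
  rw [e1, e2] at h
  have h0 : 0 ≤ ∑ i, (a i * a i - c i * c i) ^ 2 := sum_nonneg fun i _ => sq_nonneg _
  rw [e3]
  linarith [sq_nonneg (1 - ∑ i, a i * c i)]

theorem qvec_norm {σ : ℝ} (hσ : σ ^ 2 = 1) {a : Fin n → ℝ} (ha : ∑ i, a i ^ 2 = 1) :
    ∑ p, qvec σ a p ^ 2 ≤ 2 := by
  have h := sum_sum_eq n fun i j => a i ^ 2 * a j ^ 2
  have e1 : ∑ i, ∑ j, a i ^ 2 * a j ^ 2 = 1 := by simp only [← mul_sum, ha, mul_one]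
  have e2 : ∑ p : Pair n, (a p.1.1 ^ 2 * a p.1.2 ^ 2 + a p.1.2 ^ 2 * a p.1.1 ^ 2)
      = (∑ p, qvec σ a p ^ 2) / 2 := by
    rw [sum_div]
    refine sum_congr rfl fun p _ => ?_
    rw [qvec, mul_pow, hσ]
    ring
  rw [e1, e2] at h
  have h0 : 0 ≤ ∑ i, a i ^ 2 * a i ^ 2 := sum_nonneg fun i _ => by positivity
  linarith

theorem sq_coord {ι : Type*} [Fintype ι] (i : ι) :
    Integrable (fun g : ι → ℝ => g i ^ 2) (gp ι) ∧ ∫ g, g i ^ 2 ∂gp ι = 1 := by
  have mp : MeasurePreserving (fun g : ι → ℝ => g i) (gp ι) (gaussianReal 0 1) :=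
    measurePreserving_eval _ i
  have h2 : Integrable (fun x : ℝ => x ^ 2) (gaussianReal 0 1) :=
    (memLp_id_gaussianReal 2).integrable_sq
  refine ⟨mp.integrable_comp_of_integrable h2, ?_⟩
  have hv := variance_id_gaussianReal (μ := 0) (v := 1)
  rw [variance_of_integral_eq_zero aemeasurable_id (by simp)] at hv
  rw [show ∫ g, g i ^ 2 ∂gp ι = ∫ x : ℝ, x ^ 2 ∂gaussianReal 0 1 by
    rw [← mp.map_eq, integral_map mp.measurable.aemeasurable]
    exact (continuous_pow 2).aestronglyMeasurable]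
  simpa using hv

/-- The mean of the Euclidean norm is at most `√n`. -/
theorem mean_norm_le {ι : Type*} [Fintype ι] :
    Integrable (fun g : ι → ℝ => √(∑ i, g i ^ 2)) (gp ι) ∧
    ∫ g, √(∑ i, g i ^ 2) ∂gp ι ≤ √(Fintype.card ι) := by
  have hi := fun i : ι => sq_coord i
  have hS : Integrable (fun g : ι → ℝ => ∑ i, g i ^ 2) (gp ι) :=
    integrable_finsetSum _ fun i _ => (hi i).1
  have hsi : Integrable (fun g : ι → ℝ => √(∑ i, g i ^ 2)) (gp ι) := by
    refine ((hS.add (integrable_const 1))).mono' (Continuous.aestronglyMeasurable (by fun_prop))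
      (ae_of_all _ fun g => ?_)
    have h0 : 0 ≤ ∑ i, g i ^ 2 := sum_nonneg fun i _ => sq_nonneg _
    rw [Real.norm_eq_abs, abs_of_nonneg (sqrt_nonneg _), Pi.add_apply]
    nlinarith [sq_sqrt h0, sqrt_nonneg (∑ i, g i ^ 2)]
  refine ⟨hsi, ?_⟩
  rcases Nat.eq_zero_or_pos (Fintype.card ι) with h | h
  · have : IsEmpty ι := Fintype.card_eq_zero_iff.1 h
    simp
  set r := √(Fintype.card ι : ℝ) with hr
  have hr0 : 0 < r := sqrt_pos.2 (by exact_mod_cast h)
  have hS1 : ∫ g, ∑ i, g i ^ 2 ∂gp ι = r ^ 2 := by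
    rw [integral_finsetSum _ fun i _ => (hi i).1]
    simp [fun i => (hi i).2, hr]
  have hR : Integrable (fun g : ι → ℝ => (∑ i, g i ^ 2) / (2 * r) + r / 2) (gp ι) :=
    (hS.div_const (2 * r)).add (integrable_const (r / 2))
  have hpt : ∀ g : ι → ℝ, √(∑ i, g i ^ 2) ≤ (∑ i, g i ^ 2) / (2 * r) + r / 2 := fun g => by
    have h0 : 0 ≤ ∑ i, g i ^ 2 := sum_nonneg fun i _ => sq_nonneg _
    set q := √(∑ i, g i ^ 2) with hq
    have hq2 : q ^ 2 = ∑ i, g i ^ 2 := sq_sqrt h0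
    rw [← hq2]
    have e : q ^ 2 / (2 * r) + r / 2 - q = (q - r) ^ 2 / (2 * r) := by field_simp; ring
    have : 0 ≤ (q - r) ^ 2 / (2 * r) := by positivity
    linarith
  calc ∫ g, √(∑ i, g i ^ 2) ∂gp ι ≤ ∫ g, (∑ i, g i ^ 2) / (2 * r) + r / 2 ∂gp ι :=
        integral_mono hsi hR hpt
    _ = r := by
      rw [integral_add (hS.div_const (2 * r)) (integrable_const (r / 2)), integral_div, hS1]
      simp only [integral_const, probReal_univ, one_smul]
      field_simp
      ring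

theorem mean_top_le {S : Type*} [Fintype S] [Nonempty S] {σ : ℝ} (hσ : σ ^ 2 = 1)
    (a : S → Fin n → ℝ) (ha : ∀ s, ∑ i, a s i ^ 2 = 1) :
    ∫ g, maxLin (fun s => qvec σ (a s)) g ∂gp (Pair n) ≤ 2 * √n := by
  refine (mean_max_le (fun s => qvec σ (a s)) (fun s i => 2 * a s i)
    fun s t => qvec_incr hσ (ha s) (ha t)).trans ?_
  have hm := mean_norm_le (ι := Fin n)
  have hR : Integrable (fun g : Fin n → ℝ => 2 * √(∑ i, g i ^ 2)) (gp (Fin n)) := hm.1.const_mul 2
  have hpt : ∀ g : Fin n → ℝ, maxLin (fun s i => 2 * a s i) g ≤ 2 * √(∑ i, g i ^ 2) := fun g => by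
    refine Finset.sup'_le _ _ fun s _ => ?_
    have hcs := Real.sum_mul_le_sqrt_mul_sqrt Finset.univ g (fun i => 2 * a s i)
    have e : ∑ i, (2 * a s i) ^ 2 = 2 ^ 2 := by simp only [mul_pow, ← mul_sum, ha, mul_one]
    rw [e, sqrt_sq zero_le_two] at hcs
    simp only [P150.lin]
    linarith
  have h2 := hm.2
  simp only [Fintype.card_fin] at h2
  calc ∫ g, maxLin (fun s i => 2 * a s i) g ∂gp (Fin n) ≤ ∫ g, 2 * √(∑ i, g i ^ 2) ∂gp (Fin n) :=
        integral_mono (integrable_maxLin _) hR hpt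
    _ = 2 * ∫ g, √(∑ i, g i ^ 2) ∂gp (Fin n) := integral_const_mul _ _
    _ ≤ 2 * √n := mul_le_mul_of_nonneg_left h2 zero_le_two

/-- The quadratic form of the upper triangle, doubled. -/
def tri (g : Pair n → ℝ) (v : Fin n → ℝ) : ℝ := ∑ p : Pair n, g p * (2 * (v p.1.1 * v p.1.2))

theorem tri_smul (g : Pair n → ℝ) (r : ℝ) (v : Fin n → ℝ) :
    tri g (fun i => r * v i) = r ^ 2 * tri g v := by
  simp only [tri, mul_sum]
  exact sum_congr rfl fun p _ => by ring

theorem card_pair_le (n : ℕ) : (Fintype.card (Pair n) : ℝ) ≤ (n : ℝ) ^ 2 := by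
  have h : Fintype.card (Pair n) ≤ Fintype.card (Fin n × Fin n) := Fintype.card_subtype_le _
  simp only [Fintype.card_prod, Fintype.card_fin] at h
  rw [pow_two]
  exact_mod_cast h

/-- The edge: with probability tending to one, `|v G v| ≤ (2 + η) √n |v|²` for all `v`. -/
theorem edge {η : ℝ} (hη : 0 < η) {δ : ℝ} (hδ : 0 < δ) : ∀ᶠ n : ℕ in atTop,
    (disorder n).real {g | ¬ ∀ v, |tri g v| ≤ (2 + η) * √n * ∑ i, v i ^ 2} ≤ δ := by
  obtain ⟨C, hC, htail⟩ := lip_tail
  obtain ⟨M, hM⟩ := exists_nat_ge (max (max (2 * C * (√2) ^ 4 / (η / 2) ^ 4 / (δ / 2)) (8 / δ)) (8 / η))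
  filter_upwards [eventually_ge_atTop (M + 1)] with n hn
  have hn1 : 1 ≤ n := by omega
  have hnp : (0 : ℝ) < n := by exact_mod_cast hn1
  have hnM : (M : ℝ) ≤ n := by exact_mod_cast (show M ≤ n by omega)
  have hMc : 2 * C * (√2) ^ 4 / (η / 2) ^ 4 / (δ / 2) ≤ n :=
    ((le_max_left _ _).trans ((le_max_left _ _).trans hM)).trans hnM
  have hMd : 8 / δ ≤ n := ((le_max_right _ _).trans ((le_max_left _ _).trans hM)).trans hnM
  have hMe : 8 / η ≤ n := ((le_max_right _ _).trans hM).trans hnM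
  set S0 : Set (Fin n → ℝ) := {v | ∑ i, v i ^ 2 = 1} with hS0
  have hS0c : TotallyBounded S0 := by
    refine TotallyBounded.subset ?_ (isCompact_closedBall (0 : Fin n → ℝ) 1).totallyBounded
    intro v hv
    rw [mem_closedBall_zero_iff, pi_norm_le_iff_of_nonneg zero_le_one]
    intro i
    rw [Real.norm_eq_abs, ← sq_le_one_iff_abs_le_one]
    exact (single_le_sum (f := fun j => v j ^ 2) (fun j _ => sq_nonneg _) (mem_univ i)).trans_eq hv
  obtain ⟨T, hTS, hTf, hTc⟩ := Metric.finite_approx_of_totallyBounded hS0c (1 / (n : ℝ) ^ 4) (by positivity)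
  haveI := hTf.fintype
  haveI : Nonempty T := by
    have hv : (fun i : Fin n => if i = (⟨0, hn1⟩ : Fin n) then (1 : ℝ) else 0) ∈ S0 := by simp [hS0]
    have h := hTc hv
    simp only [Set.mem_iUnion] at h
    obtain ⟨y, hy, -⟩ := h
    exact ⟨⟨y, hy⟩⟩
  set U : ℝ → (Pair n → ℝ) → ℝ := fun σ => maxLin fun s : T => qvec σ s.1 with hU
  have hdis : disorder n = gp (Pair n) := rfl
  have htailσ : ∀ σ : ℝ, σ ^ 2 = 1 →
      (disorder n).real {g | (2 + η / 2) * √n ≤ U σ g} ≤ δ / 2 / 2 := fun σ hσ => by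
    rw [hdis]
    have hlip := maxLin_lip (fun s : T => qvec σ s.1) (sqrt_nonneg 2)
      (fun s => (qvec_norm hσ (hTS s.2)).trans_eq (sq_sqrt zero_le_two).symm)
    have h := htail (Pair n) (U σ) (√2) (by positivity) hlip (η / 2 * √n) (by positivity)
    have hm := mean_top_le hσ (fun s : T => s.1) fun s => hTS s.2
    refine le_trans (measureReal_mono (fun g hg => ?_) (measure_ne_top _ _)) (h.trans ?_)
    · simp only [Set.mem_setOf_eq] at hg ⊢
      linarith
    · have e : (η / 2 * √n) ^ 4 = (η / 2) ^ 4 * (n : ℝ) ^ 2 := by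
        have h4 : √(n : ℝ) ^ 4 = (n : ℝ) ^ 2 := by
          rw [show (4 : ℕ) = 2 * 2 from rfl, pow_mul, sq_sqrt hnp.le]
        rw [mul_pow, h4]
      rw [div_div, div_le_iff₀ (by positivity)] at hMc
      rw [e, div_le_iff₀ (by positivity)]
      have hn2 : (n : ℝ) ≤ (n : ℝ) ^ 2 := by nlinarith [show (1 : ℝ) ≤ n by exact_mod_cast hn1]
      linarith [mul_le_mul_of_nonneg_right hn2 (show 0 ≤ (η / 2) ^ 4 * (δ / 2) by positivity)]
  have hA : (disorder n).real {g | (n : ℝ) ^ 3 ≤ ∑ p, |g p|} ≤ δ / 2 := by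
    rw [hdis]
    have hi : ∀ p : Pair n, ∫ g, |g p| ∂gp (Pair n) ≤ 1 := fun p => by
      have hm := mean_norm_le (ι := Fin 1)
      have mp : MeasurePreserving (fun g : Pair n → ℝ => fun _ : Fin 1 => g p) (gp (Pair n)) (gp (Fin 1)) :=
        ((measurePreserving_funUnique (gaussianReal 0 1) (Fin 1)).symm _).comp (measurePreserving_eval _ p)
      have e : ∫ g, |g p| ∂gp (Pair n) = ∫ h : Fin 1 → ℝ, √(∑ i, h i ^ 2) ∂gp (Fin 1) := by
        rw [← mp.map_eq, integral_map mp.measurable.aemeasurable]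
        · congr 1; funext g; simp [sqrt_sq_eq_abs]
        · exact Continuous.aestronglyMeasurable (by fun_prop)
      rw [e]
      simpa using hm.2
    have h := mul_meas_ge_le_integral_of_nonneg (μ := gp (Pair n))
      (ae_of_all _ fun g => sum_nonneg fun p _ => abs_nonneg (g p)) integrable_abs_coord_sum ((n : ℝ) ^ 3)
    rw [integral_finsetSum _ fun p _ => (integrable_coord p).abs] at h
    have h2 : ∑ p : Pair n, ∫ g, |g p| ∂gp (Pair n) ≤ (n : ℝ) ^ 2 :=
      (sum_le_sum fun p _ => hi p).trans (le_trans (le_of_eq (by simp)) (card_pair_le n))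
    have h3 := h.trans h2
    have h4 : 8 ≤ δ * n := by rw [div_le_iff₀ hδ] at hMd; linarith
    generalize (gp (Pair n)).real {g | (n : ℝ) ^ 3 ≤ ∑ p, |g p|} = m at h3 ⊢
    have hmn : (n : ℝ) * m ≤ 1 := le_of_mul_le_mul_left (a := (n : ℝ) ^ 2) (by linarith) (by positivity)
    refine le_of_mul_le_mul_left (a := (n : ℝ)) ?_ hnp
    linarith
  have hsub : {g : Pair n → ℝ | ¬ ∀ v, |tri g v| ≤ (2 + η) * √n * ∑ i, v i ^ 2}
      ⊆ ({g | (2 + η / 2) * √n ≤ U 1 g} ∪ {g | (2 + η / 2) * √n ≤ U (-1) g})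
        ∪ {g | (n : ℝ) ^ 3 ≤ ∑ p, |g p|} := by
    intro g hg
    by_contra hc
    simp only [Set.mem_union, Set.mem_setOf_eq, not_or, not_le] at hc
    obtain ⟨⟨hp, hm⟩, hsum⟩ := hc
    apply hg
    have hunit : ∀ w, w ∈ S0 → |tri g w| ≤ (2 + η) * √n := fun w hw => by
      have h := hTc hw
      simp only [Set.mem_iUnion, Metric.mem_ball] at h
      obtain ⟨a, ha, hwa⟩ := h
      have h1 : tri g a < (2 + η / 2) * √n := lt_of_le_of_lt (le_of_eq_of_le (by
          simp [tri, P150.lin, qvec])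
        (le_sup' (fun s : T => P150.lin (qvec 1 s.1) g) (mem_univ ⟨a, ha⟩))) hp
      have h2 : -tri g a < (2 + η / 2) * √n := lt_of_le_of_lt (le_of_eq_of_le (by
          simp [tri, P150.lin, qvec])
        (le_sup' (fun s : T => P150.lin (qvec (-1) s.1) g) (mem_univ ⟨a, ha⟩))) hm
      have habs : ∀ u, u ∈ S0 → ∀ i, |u i| ≤ 1 := fun u hu i => by
        rw [← sq_le_one_iff_abs_le_one]
        exact (single_le_sum (f := fun j => u j ^ 2) (fun j _ => sq_nonneg _) (mem_univ i)).trans_eq hu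
      have hdiff : |tri g w - tri g a| ≤ 4 * (1 / (n : ℝ) ^ 4) * ∑ p, |g p| := by
        simp only [tri, ← sum_sub_distrib, mul_sum]
        refine (abs_sum_le_sum_abs _ _).trans (sum_le_sum fun p _ => ?_)
        rw [← mul_sub, abs_mul, mul_comm]
        refine mul_le_mul_of_nonneg_right ?_ (abs_nonneg _)
        have d1 : |w p.1.1 - a p.1.1| ≤ 1 / (n : ℝ) ^ 4 := (dist_le_pi_dist w a _).trans hwa.le
        have d2 : |w p.1.2 - a p.1.2| ≤ 1 / (n : ℝ) ^ 4 := (dist_le_pi_dist w a _).trans hwa.le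
        have e : 2 * (w p.1.1 * w p.1.2) - 2 * (a p.1.1 * a p.1.2)
            = 2 * ((w p.1.1 - a p.1.1) * w p.1.2 + a p.1.1 * (w p.1.2 - a p.1.2)) := by ring
        rw [e, abs_mul, abs_two]
        have t1 := mul_le_mul d1 (habs w hw p.1.2) (abs_nonneg _) (by positivity)
        have t2 := mul_le_mul (habs a (hTS ha) p.1.1) d2 (abs_nonneg _) zero_le_one
        rw [← abs_mul] at t1 t2
        have := abs_add_le ((w p.1.1 - a p.1.1) * w p.1.2) (a p.1.1 * (w p.1.2 - a p.1.2))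
        linarith
      have hsmall : 4 * (1 / (n : ℝ) ^ 4) * ∑ p, |g p| ≤ η / 2 * √n := by
        have h4 : 8 ≤ η * n := by rw [div_le_iff₀ hη] at hMe; linarith
        have hs1 : 1 ≤ √(n : ℝ) := one_le_sqrt.2 (by exact_mod_cast hn1)
        refine (mul_le_mul_of_nonneg_left hsum.le (by positivity)).trans ?_
        have e : 4 * (1 / (n : ℝ) ^ 4) * (n : ℝ) ^ 3 = 4 / n := by field_simp
        rw [e, div_le_iff₀ hnp]
        linarith [mul_le_mul_of_nonneg_left hs1 (show 0 ≤ η / 2 * n by positivity)]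
      have hd := abs_le.1 hdiff
      exact abs_le.2 ⟨by linarith, by linarith⟩
    intro v
    rcases (sum_nonneg fun i _ => sq_nonneg (v i) : 0 ≤ ∑ i, v i ^ 2).eq_or_lt with h | h
    · have hv : ∀ i, v i = 0 := fun i => by
        have := (sum_eq_zero_iff_of_nonneg fun i _ => sq_nonneg (v i)).1 h.symm i (mem_univ i)
        simpa using this
      simp [tri, hv]
    · set r := √(∑ i, v i ^ 2) with hr
      have hr0 : 0 < r := sqrt_pos.2 h
      have hr2 : r ^ 2 = ∑ i, v i ^ 2 := sq_sqrt h.le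
      have hw := hunit (fun i => r⁻¹ * v i) (by
        simp only [hS0, Set.mem_setOf_eq, mul_pow, ← mul_sum, ← hr2, inv_pow]
        exact inv_mul_cancel₀ (pow_ne_zero 2 hr0.ne'))
      rw [tri_smul, abs_mul, abs_of_nonneg (sq_nonneg _), inv_pow, inv_mul_le_iff₀ (by positivity), hr2] at hw
      linarith
  rw [hdis] at htailσ hA ⊢
  refine ((measureReal_mono hsub (measure_ne_top _ _)).trans (measureReal_union_le _ _)).trans ?_
  have := measureReal_union_le (μ := gp (Pair n)) {g | (2 + η / 2) * √n ≤ U 1 g} {g | (2 + η / 2) * √n ≤ U (-1) g}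
  linarith [htailσ 1 (by norm_num), htailσ (-1) (by norm_num)]

end Vale.Agent.P150.Edge
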